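import Mathlib

-- ▼ part R057/Cg1_765
section

/-!
# R057 (S0079): the deletion inequality (GCG) of helper203, in the form of helper765

`A x` = out-neighbourhood of `x`; `An A S` = out-neighbourhood of a set; `Re A x` = vertices reached
from `x` in one or two steps; `row A w x = w(N⁺(x)) - w(N⁺⁺(x))`.
-/

set_option autoImplicit false
set_option linter.unusedSectionVars false

namespace Crest.Agent.R057.Cg765

open Finset

section basics

variable {V : Type*} [DecidableEq V]

/-- weight of a set -/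
def wt (w : V → ℝ) (S : Finset V) : ℝ := ∑ x ∈ S, w x

/-- out-neighbourhood of a set -/
def An (A : V → Finset V) (S : Finset V) : Finset V := S.biUnion A

/-- oriented graph: no loops, no digons -/
def Ori (A : V → Finset V) : Prop := ∀ x y, y ∈ A x → x ∉ A y

/-- vertices reached from `x` in one or two steps -/
def Re (A : V → Finset V) (x : V) : Finset V := A x ∪ An A (A x)

/-- first minus second out-neighbourhood -/
def row (A : V → Finset V) (w : V → ℝ) (x : V) : ℝ := 2 * wt w (A x) - wt w (Re A x)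

variable {A : V → Finset V} {w : V → ℝ}

lemma mem_An {S : Finset V} {y : V} : y ∈ An A S ↔ ∃ x ∈ S, y ∈ A x := by
  simp [An]

lemma An_mono {S T : Finset V} (h : S ⊆ T) : An A S ⊆ An A T :=
  Finset.biUnion_subset_biUnion_of_subset_left A h


@[simp] lemma An_empty : An A ∅ = ∅ := by simp [An]


lemma Ori.irrefl (h : Ori A) (x : V) : x ∉ A x := fun hx => h x x hx hx


lemma Ori.sub (h : Ori A) {A0 : V → Finset V} (h0 : ∀ x, A0 x ⊆ A x) : Ori A0 :=
  fun x y hy hx => h x y (h0 x hy) (h0 y hx)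


lemma wt_mono (hw : ∀ x, 0 ≤ w x) {S T : Finset V} (h : S ⊆ T) : wt w S ≤ wt w T :=
  Finset.sum_le_sum_of_subset_of_nonneg h fun x _ _ => hw x

lemma wt_union_disj {S T : Finset V} (h : Disjoint S T) : wt w (S ∪ T) = wt w S + wt w T :=
  Finset.sum_union h

lemma wt_sdiff_add (S T : Finset V) : wt w (S \ T) + wt w (S ∩ T) = wt w S := by
  have h : Disjoint (S \ T) (S ∩ T) := by
    rw [Finset.disjoint_left]; intro y hy hy'
    exact (Finset.mem_sdiff.mp hy).2 (Finset.mem_inter.mp hy').2
  rw [← wt_union_disj h, Finset.sdiff_union_inter]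

lemma wt_union (S T : Finset V) : wt w (S ∪ T) = wt w S + wt w (T \ S) := by
  have h : S ∪ T = S ∪ T \ S := by simp
  rw [h, wt_union_disj Finset.disjoint_sdiff]

lemma wt_sdiff_of_subset {S T : Finset V} (h : T ⊆ S) : wt w (S \ T) = wt w S - wt w T := by
  have h1 := wt_sdiff_add (w := w) S T
  rw [Finset.inter_eq_right.mpr h] at h1; linarith

@[simp] lemma wt_empty : wt w ∅ = 0 := by simp [wt]

lemma wt_singleton (x : V) : wt w {x} = w x := by simp [wt]

lemma row_eq (x : V) : row A w x = wt w (A x) - wt w (An A (A x) \ A x) := by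
  rw [row, Re, wt_union]; ring

/-- the property `(Opt)` in its usable form -/
def OptT (A : V → Finset V) (w : V → ℝ) : Prop :=
  ∀ T U : Finset V, ¬ An A T ⊆ U → ∃ x ∈ T, ¬ A x ⊆ U ∧
    row A w x ≤ 2 * wt w (A x \ U) - wt w (Re A x \ (U ∪ An A (U \ T)))

/-- **GCG** (helper203).  For all `T, U`, with `O = U ∪ A(T)`. -/
theorem gcg (hw : ∀ x, 0 ≤ w x) (h : OptT A w) (T U : Finset V) :
    ∃ S ⊆ T, (¬ An A T ⊆ U → S.Nonempty) ∧
      ∑ x ∈ S, row A w x + wt w ((U ∪ An A T) ∪ An A (U ∪ An A T))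
        - wt w (U ∪ An A (U \ T)) ≤ 2 * wt w ((U ∪ An A T) \ U) := by
  classical
  induction hn : T.card generalizing T U with
  | zero =>
    have hT : T = ∅ := Finset.card_eq_zero.mp hn
    subst hT
    exact ⟨∅, le_refl _, by simp, by simp⟩
  | succ n ih =>
    by_cases hTU : An A T ⊆ U
    · refine ⟨∅, Finset.empty_subset _, fun h' => absurd hTU h', ?_⟩
      have hO : U ∪ An A T = U := Finset.union_eq_left.mpr hTU
      rw [hO]
      have hsub : U ∪ An A U ⊆ U ∪ An A (U \ T) := by
        apply Finset.union_subset Finset.subset_union_left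
        intro y hy
        obtain ⟨x, hx, hyx⟩ := mem_An.mp hy
        by_cases hxT : x ∈ T
        · exact Finset.mem_union_left _ (hTU (mem_An.mpr ⟨x, hxT, hyx⟩))
        · exact Finset.mem_union_right _ (mem_An.mpr ⟨x, Finset.mem_sdiff.mpr ⟨hx, hxT⟩, hyx⟩)
      have := wt_mono hw hsub
      simp only [Finset.sum_empty, Finset.sdiff_self, wt_empty]
      linarith
    · obtain ⟨x, hxT, hxU, hrow⟩ := h T U hTU
      have hcard : (T.erase x).card = n := by
        rw [Finset.card_erase_of_mem hxT, hn]; rfl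
      obtain ⟨S, hST, -, hS⟩ := ih (T.erase x) (U ∪ A x) hcard
      have hxS : x ∉ S := fun hx => Finset.notMem_erase x T (hST hx)
      refine ⟨insert x S, ?_, fun _ => ⟨x, Finset.mem_insert_self _ _⟩, ?_⟩
      · intro y hy
        rcases Finset.mem_insert.mp hy with rfl | hy
        · exact hxT
        · exact Finset.mem_of_mem_erase (hST hy)
      · have hO : (U ∪ A x) ∪ An A (T.erase x) = U ∪ An A T := by
          ext y
          simp only [Finset.mem_union, mem_An, Finset.mem_erase]
          constructor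
          · rintro ((h1 | h1) | ⟨z, ⟨_, hz⟩, hy⟩)
            · exact Or.inl h1
            · exact Or.inr ⟨x, hxT, h1⟩
            · exact Or.inr ⟨z, hz, hy⟩
          · rintro (h1 | ⟨z, hz, hy⟩)
            · exact Or.inl (Or.inl h1)
            · by_cases hzx : z = x
              · subst hzx; exact Or.inl (Or.inr hy)
              · exact Or.inr ⟨z, ⟨hzx, hz⟩, hy⟩
        rw [hO] at hS
        rw [Finset.sum_insert hxS]
        -- W' ⊆ W ∪ Re x
        have hW : (U ∪ A x) ∪ An A ((U ∪ A x) \ T.erase x)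
            ⊆ (U ∪ An A (U \ T)) ∪ Re A x := by
          intro y hy
          simp only [Finset.mem_union, mem_An, Finset.mem_sdiff, Finset.mem_erase, Re] at hy ⊢
          rcases hy with (h1 | h1) | ⟨z, ⟨hz, hzT⟩, hyz⟩
          · exact Or.inl (Or.inl h1)
          · exact Or.inr (Or.inl h1)
          · by_cases hzx : z = x
            · subst hzx; exact Or.inr (Or.inl hyz)
            · have hzT' : z ∉ T := fun h' => hzT ⟨hzx, h'⟩
              rcases hz with hz | hz
              · exact Or.inl (Or.inr ⟨z, ⟨hz, hzT'⟩, hyz⟩)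
              · exact Or.inr (Or.inr ⟨z, hz, hyz⟩)
        have hWw := wt_mono hw hW
        rw [wt_union (U ∪ An A (U \ T)) (Re A x)] at hWw
        -- O \ U
        have hOU : wt w ((U ∪ An A T) \ U) = wt w ((U ∪ An A T) \ (U ∪ A x)) + wt w (A x \ U) := by
          have h1 : (U ∪ An A T) \ U = ((U ∪ An A T) \ (U ∪ A x)) ∪ (A x \ U) := by
            ext y
            simp only [Finset.mem_union, mem_An, Finset.mem_sdiff]
            constructor
            · rintro ⟨h2, h3⟩
              by_cases h4 : y ∈ A x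
              · exact Or.inr ⟨h4, h3⟩
              · exact Or.inl ⟨h2, fun h5 => h5.elim h3 h4⟩
            · rintro (⟨h2, h3⟩ | ⟨h2, h3⟩)
              · exact ⟨h2, fun h4 => h3 (Or.inl h4)⟩
              · exact ⟨Or.inr ⟨x, hxT, h2⟩, h3⟩
          rw [h1, wt_union_disj]
          rw [Finset.disjoint_left]
          intro y hy hy'
          simp only [Finset.mem_sdiff, Finset.mem_union] at hy hy'
          exact hy.2 (Or.inr hy'.1)
        rw [hOU]
        linarith

end basics

end Crest.Agent.R057.Cg765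
end

-- ▼ part R057/Cg2_765
section

/-!
# R057 (S0079): minimal world, transport to `Fin n`, reduction of the literal statement
-/

set_option autoImplicit false
set_option linter.unusedSectionVars false

namespace Crest.Agent.R057.Cg765

open Finset

section transport

variable {V W : Type*} [DecidableEq V] [DecidableEq W]

/-- transport of a digraph along an equivalence -/
def tr (e : V ≃ W) (A : V → Finset V) : W → Finset W := fun y => (A (e.symm y)).map e.toEmbedding

lemma mem_tr {e : V ≃ W} {A : V → Finset V} {x y : V} : e y ∈ tr e A (e x) ↔ y ∈ A x := by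
  simp [tr]

lemma tr_apply (e : V ≃ W) (A : V → Finset V) (x : V) : tr e A (e x) = (A x).map e.toEmbedding := by
  simp [tr]

lemma Ori.tr {e : V ≃ W} {A : V → Finset V} (h : Ori A) : Ori (tr e A) := by
  intro x y hy
  obtain ⟨x, rfl⟩ := e.surjective x
  obtain ⟨y, rfl⟩ := e.surjective y
  rw [mem_tr] at hy ⊢
  exact h x y hy

lemma An_tr (e : V ≃ W) (A : V → Finset V) (S : Finset V) :
    An (tr e A) (S.map e.toEmbedding) = (An A S).map e.toEmbedding := by
  ext y
  obtain ⟨y, rfl⟩ := e.surjective y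
  simp only [mem_An, Finset.mem_map, Equiv.coe_toEmbedding]
  constructor
  · rintro ⟨_, ⟨x, hx, rfl⟩, hy⟩
    exact ⟨y, ⟨x, hx, mem_tr.mp hy⟩, rfl⟩
  · rintro ⟨y', ⟨x, hx, hy⟩, h⟩
    obtain rfl := e.injective h
    exact ⟨e x, ⟨x, hx, rfl⟩, mem_tr.mpr hy⟩

lemma wt_map (e : V ≃ W) (w : V → ℝ) (S : Finset V) :
    wt (w ∘ e.symm) (S.map e.toEmbedding) = wt w S := by
  simp [wt]

lemma row_tr (e : V ≃ W) (A : V → Finset V) (w : V → ℝ) (x : V) :
    row (tr e A) (w ∘ e.symm) (e x) = row A w x := by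
  rw [row, row, Re, Re, tr_apply, An_tr, ← Finset.map_union, wt_map, wt_map]

end transport

/-- there is a weighted counterexample on `Fin n` with `m` arcs -/
def HasCE (n m : ℕ) : Prop :=
  ∃ A : Fin n → Finset (Fin n), Ori A ∧ ∑ x, (A x).card = m ∧ 0 < n ∧
    ∃ w : Fin n → ℝ, (∀ x, 0 ≤ w x) ∧ ∀ x, 0 < row A w x

/-- a minimal counterexample: fewest vertices, then fewest arcs -/
structure World {V : Type} [Fintype V] [DecidableEq V] (A : V → Finset V) : Prop where
  ne : Nonempty V
  ori : Ori A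
  exw : ∃ w : V → ℝ, (∀ x, 0 ≤ w x) ∧ ∀ x, 0 < row A w x
  vmin : ∀ (W : Type) [Fintype W] [DecidableEq W] (A' : W → Finset W), Nonempty W → Ori A' →
    Fintype.card W < Fintype.card V → ∀ w : W → ℝ, (∀ x, 0 ≤ w x) → ∃ x, row A' w x ≤ 0
  amin : ∀ A0 : V → Finset V, (∀ x, A0 x ⊆ A x) → A0 ≠ A → ∀ w : V → ℝ, (∀ x, 0 ≤ w x) →
    ∃ x, row A0 w x ≤ 0

lemma hasCE_of {V : Type*} [Fintype V] [DecidableEq V] [Nonempty V] (A : V → Finset V)
    (hA : Ori A) (w : V → ℝ) (hw : ∀ x, 0 ≤ w x) (hr : ∀ x, 0 < row A w x) :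
    ∃ m, HasCE (Fintype.card V) m := by
  classical
  let e : V ≃ Fin (Fintype.card V) := Fintype.equivFin V
  refine ⟨_, tr e A, hA.tr, rfl, Fintype.card_pos, w ∘ e.symm, fun x => hw _, fun x => ?_⟩
  obtain ⟨x, rfl⟩ := e.surjective x
  rw [row_tr]; exact hr x

theorem exists_world (h : ∃ n m, HasCE n m) :
    ∃ (n : ℕ) (A : Fin n → Finset (Fin n)), World A := by
  classical
  let n := Nat.find h
  have hn : ∃ m, HasCE n m := Nat.find_spec h
  have hnmin : ∀ k, k < n → ∀ m, ¬ HasCE k m := fun k hk m hm => Nat.find_min h hk ⟨m, hm⟩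
  let m := Nat.find hn
  have hm : HasCE n m := Nat.find_spec hn
  have hmmin : ∀ k, k < m → ¬ HasCE n k := fun k hk => Nat.find_min hn hk
  obtain ⟨A, hA, hcard, hpos, w, hw, hr⟩ := hm
  refine ⟨n, A, ⟨⟨0, hpos⟩⟩, hA, ⟨w, hw, hr⟩, ?_, ?_⟩
  · intro W _ _ A' hW hA' hlt w' hw'
    by_contra hcon
    push Not at hcon
    haveI := hW
    obtain ⟨m', hm'⟩ := hasCE_of A' hA' w' hw' hcon
    rw [Fintype.card_fin] at hlt
    exact hnmin _ hlt m' hm'
  · intro A0 h0 hne w' hw'
    by_contra hcon
    push Not at hcon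
    have hlt : ∑ x, (A0 x).card < m := by
      rw [← hcard]
      have : ∃ x, A0 x ≠ A x := by
        by_contra hc; push Not at hc; exact hne (funext hc)
      obtain ⟨x, hx⟩ := this
      refine Finset.sum_lt_sum (fun y _ => Finset.card_le_card (h0 y)) ⟨x, Finset.mem_univ x, ?_⟩
      exact Finset.card_lt_card ((h0 x).ssubset_of_ne hx)
    exact hmmin _ hlt ⟨A0, hA.sub h0, rfl, hpos, w', hw', hcon⟩

/-- **Reduction of the literal statement S0079.** -/
theorem S0079_of (H : ∀ (n : ℕ) (A : Fin n → Finset (Fin n)), World A → False)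
    (V : Type*) [Fintype V] [Nonempty V] (G : Digraph V)
    (hloop : ∀ v, ¬ G.Adj v v) (hopp : ∀ u v, G.Adj u v → ¬ G.Adj v u) :
    ∃ v : V, Set.ncard {u | G.Adj v u} ≤
      Set.ncard {w | w ≠ v ∧ ¬ G.Adj v w ∧ ∃ u, G.Adj v u ∧ G.Adj u w} := by
  classical
  by_contra hcon
  push Not at hcon
  let A : V → Finset V := fun x => Finset.univ.filter fun y => G.Adj x y
  have hmem : ∀ x y, y ∈ A x ↔ G.Adj x y := fun x y => by simp [A]
  have hA : Ori A := by
    intro x y hy hx
    rw [hmem] at hy hx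
    exact hopp x y hy hx
  have hr : ∀ x, 0 < row A (fun _ => (1 : ℝ)) x := by
    intro x
    have h1 : {u | G.Adj x u} = ((A x : Finset V) : Set V) := by
      ext y; simp [A]
    have h2 : {w | w ≠ x ∧ ¬ G.Adj x w ∧ ∃ u, G.Adj x u ∧ G.Adj u w}
        = ((An A (A x) \ A x : Finset V) : Set V) := by
      ext y
      simp only [Set.mem_setOf_eq, Finset.coe_sdiff, Set.mem_diff, Finset.mem_coe, mem_An, hmem]
      constructor
      · rintro ⟨_, h3, h4⟩; exact ⟨h4, h3⟩
      · rintro ⟨⟨u, h4, h5⟩, h3⟩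
        refine ⟨?_, h3, u, h4, h5⟩
        rintro rfl
        exact hopp _ _ h4 h5
    have h3 := hcon x
    rw [h1, h2, Set.ncard_coe_finset, Set.ncard_coe_finset] at h3
    rw [row_eq]
    have h4 : ∀ S : Finset V, wt (fun _ => (1 : ℝ)) S = S.card := by
      intro S; simp [wt]
    rw [h4, h4]
    have : ((An A (A x) \ A x).card : ℝ) < (A x).card := by exact_mod_cast h3
    linarith
  obtain ⟨m, hm⟩ := hasCE_of A hA (fun _ => (1 : ℝ)) (fun _ => zero_le_one) hr
  obtain ⟨n, A', hA'⟩ := exists_world ⟨_, m, hm⟩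
  exact H n A' hA'

end Crest.Agent.R057.Cg765
end

-- ▼ part R057/Cg3_765
section

/-!
# R057 (S0079): consequences of minimality: `OptT`, positivity, strong connectivity,
CG, the rows `K_Z`, HALL.
-/

set_option autoImplicit false
set_option linter.unusedSectionVars false

namespace Crest.Agent.R057.Cg765

open Finset

variable {V : Type} [Fintype V] [DecidableEq V] {A : V → Finset V} {w : V → ℝ}

/-- the weights considered in a world: nonnegative with all rows positive -/
structure Good (A : V → Finset V) (w : V → ℝ) : Prop where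
  nonneg : ∀ x, 0 ≤ w x
  row_pos : ∀ x, 0 < row A w x

lemma World.exists_good (H : World A) : ∃ w, Good A w :=
  let ⟨w, h1, h2⟩ := H.exw; ⟨w, h1, h2⟩

lemma An_le {A0 : V → Finset V} (h0 : ∀ x, A0 x ⊆ A x) (S : Finset V) : An A0 S ⊆ An A S := by
  intro y hy
  obtain ⟨x, hx, hyx⟩ := mem_An.mp hy
  exact mem_An.mpr ⟨x, hx, h0 x hyx⟩

lemma Re_le {A0 : V → Finset V} (h0 : ∀ x, A0 x ⊆ A x) (x : V) : Re A0 x ⊆ Re A x := by
  apply Finset.union_subset_union (h0 x)
  exact (An_mono (h0 x)).trans (An_le h0 _)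

/-- **(Opt)**: after deleting arcs some tail has row `≤ 0`. -/
lemma World.opt (H : World A) (hw : Good A w) {A0 : V → Finset V} (h0 : ∀ x, A0 x ⊆ A x)
    (hne : A0 ≠ A) : ∃ x, A0 x ≠ A x ∧ row A0 w x ≤ 0 := by
  obtain ⟨x, hx⟩ := H.amin A0 h0 hne w hw.nonneg
  refine ⟨x, fun h => ?_, hx⟩
  have h1 : row A w x ≤ row A0 w x := by
    rw [row, row, h]
    have := wt_mono hw.nonneg (Re_le h0 x)
    linarith
  have := hw.row_pos x
  linarith

/-- deletion of all arcs from `T` leaving `U` -/
def del (A : V → Finset V) (T U : Finset V) : V → Finset V :=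
  fun x => if x ∈ T then A x ∩ U else A x

lemma World.optT (H : World A) (hw : Good A w) : OptT A w := by
  intro T U hTU
  have h0 : ∀ x, del A T U x ⊆ A x := by
    intro x; unfold del; split_ifs
    · exact Finset.inter_subset_left
    · exact le_refl _
  have hne : del A T U ≠ A := by
    intro h
    apply hTU
    intro y hy
    obtain ⟨x, hx, hyx⟩ := mem_An.mp hy
    have h1 := congrFun h x
    simp only [del, if_pos hx] at h1
    rw [← h1] at hyx
    exact (Finset.mem_inter.mp hyx).2
  obtain ⟨x, hx, hrow⟩ := H.opt hw h0 hne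
  have hxT : x ∈ T := by
    by_contra hc; exact hx (by simp [del, hc])
  have hdx : del A T U x = A x ∩ U := by simp [del, hxT]
  refine ⟨x, hxT, ?_, ?_⟩
  · intro hc; exact hx (by rw [hdx]; exact Finset.inter_eq_left.mpr hc)
  · have hRe : Re (del A T U) x ⊆ Re A x ∩ (U ∪ An A (U \ T)) := by
      apply Finset.subset_inter (Re_le h0 x)
      intro y hy
      simp only [Re, hdx, Finset.mem_union, Finset.mem_inter, mem_An, Finset.mem_sdiff] at hy ⊢
      rcases hy with h1 | ⟨z, ⟨_, hzU⟩, hyz⟩
      · exact Or.inl h1.2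
      · by_cases hzT : z ∈ T
        · simp only [del, if_pos hzT, Finset.mem_inter] at hyz
          exact Or.inl hyz.2
        · simp only [del, if_neg hzT] at hyz
          exact Or.inr ⟨z, ⟨hzU, hzT⟩, hyz⟩
    have h1 := wt_mono hw.nonneg hRe
    have h2 := wt_sdiff_add (w := w) (A x) U
    have h3 := wt_sdiff_add (w := w) (Re A x) (U ∪ An A (U \ T))
    rw [row, hdx] at hrow
    rw [row]
    linarith

/-- `GCG` in a world, strict. -/
theorem World.gcg (H : World A) (hw : Good A w) (T U : Finset V) (hTU : ¬ An A T ⊆ U) :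
    wt w ((U ∪ An A T) ∪ An A (U ∪ An A T)) - wt w (U ∪ An A (U \ T))
      < 2 * wt w ((U ∪ An A T) \ U) := by
  obtain ⟨S, _, hS, h⟩ := Cg765.gcg hw.nonneg (H.optT hw) T U
  have : 0 < ∑ x ∈ S, row A w x := Finset.sum_pos (fun x _ => hw.row_pos x) (hS hTU)
  linarith

/-- helper203's `GCG` in boundary form. -/
theorem World.gcg' (H : World A) (hw : Good A w) (T U : Finset V) (hTU : ¬ An A T ⊆ U) :
    wt w (An A (U ∪ An A T) \ (U ∪ An A T)) <
      wt w (An A T \ U) + wt w (An A (U \ T) \ U) := by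
  have h := H.gcg hw T U hTU
  have h1 := wt_union (w := w) (U ∪ An A T) (An A (U ∪ An A T))
  have h2 := wt_union (w := w) U (An A (U \ T))
  have h3 := wt_union (w := w) U (An A T)
  have h4 : (U ∪ An A T) \ U = An A T \ U := by
    ext y; simp only [Finset.mem_sdiff, Finset.mem_union]; tauto
  rw [h4] at h
  linarith

/-- **CG**: `h(Q) > 0`. -/
theorem World.cg (H : World A) (hw : Good A w) (Q : Finset V) (hQ : ¬ An A Q ⊆ Q) :
    wt w (An A (Q ∪ An A Q) \ (Q ∪ An A Q)) < wt w (An A Q \ Q) := by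
  have h := H.gcg' hw Q Q hQ
  simp only [Finset.sdiff_self, An_empty, Finset.empty_sdiff, wt_empty, add_zero] at h
  exact h





/-- restriction to a set of vertices -/
def res (A : V → Finset V) (Z : Finset V) : {x // x ∈ Z} → Finset {x // x ∈ Z} :=
  fun x => (A x.1).subtype (· ∈ Z)

lemma mem_res {Z : Finset V} {x y : {x // x ∈ Z}} : y ∈ res A Z x ↔ y.1 ∈ A x.1 := by
  simp [res]

lemma Ori.res (h : Ori A) (Z : Finset V) : Ori (res A Z) := by
  intro x y hy
  rw [mem_res] at hy ⊢
  exact h _ _ hy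

lemma wt_res (w : V → ℝ) (Z : Finset V) (S : Finset {x // x ∈ Z}) :
    wt (fun x : {x // x ∈ Z} => w x.1) S = wt w (S.map (Function.Embedding.subtype _)) := by
  simp [wt]

lemma map_res {Z : Finset V} (x : {x // x ∈ Z}) :
    (res A Z x).map (Function.Embedding.subtype _) = A x.1 ∩ Z := by
  ext y
  simp only [Finset.mem_map, mem_res, Finset.mem_inter, Function.Embedding.subtype_apply]
  constructor
  · rintro ⟨a, h1, rfl⟩; exact ⟨h1, a.2⟩
  · rintro ⟨h1, h2⟩; exact ⟨⟨y, h2⟩, h1, rfl⟩

lemma map_An_res {Z : Finset V} (S : Finset {x // x ∈ Z}) :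
    (An (res A Z) S).map (Function.Embedding.subtype _)
      = An A (S.map (Function.Embedding.subtype _)) ∩ Z := by
  ext y
  simp only [Finset.mem_map, mem_An, mem_res, Finset.mem_inter, Function.Embedding.subtype_apply]
  constructor
  · rintro ⟨a, ⟨b, hb, h1⟩, rfl⟩; exact ⟨⟨b.1, ⟨b, hb, rfl⟩, h1⟩, a.2⟩
  · rintro ⟨⟨b', ⟨b, hb, rfl⟩, h1⟩, h2⟩; exact ⟨⟨y, h2⟩, ⟨b, hb, h1⟩, rfl⟩

/-- the row of an induced subgraph -/
lemma row_res {Z : Finset V} (x : {x // x ∈ Z}) :
    row (res A Z) (fun x => w x.1) x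
      = 2 * wt w (A x.1 ∩ Z) - wt w ((A x.1 ∩ Z) ∪ (An A (A x.1 ∩ Z) ∩ Z)) := by
  rw [row, Re, wt_res, wt_res, Finset.map_union, map_An_res, map_res]

/-- **induction hypothesis** for induced subgraphs: every nonempty proper set `Z` and every weight
has a vertex `x ∈ Z` which is Seymour in `D[Z]`. -/
lemma World.ind (H : World A) (Z : Finset V) (hZ : Z.Nonempty) (hZ' : Z ≠ Finset.univ)
    (u : V → ℝ) (hu : ∀ x, 0 ≤ u x) :
    ∃ x ∈ Z, 2 * wt u (A x ∩ Z) ≤ wt u ((A x ∩ Z) ∪ (An A (A x ∩ Z) ∩ Z)) := by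
  obtain ⟨z, hz⟩ := hZ
  have hc : Fintype.card {x // x ∈ Z} < Fintype.card V := by
    rw [Fintype.card_coe, ← Finset.card_univ]
    exact Finset.card_lt_card (Finset.ssubset_univ_iff.mpr hZ')
  obtain ⟨x, hx⟩ := H.vmin {x // x ∈ Z} (res A Z) ⟨⟨z, hz⟩⟩ (H.ori.res Z) hc (fun x => u x.1)
    (fun x => hu x.1)
  rw [row_res] at hx
  exact ⟨x.1, x.2, by linarith⟩

/-- strongly connected -/
lemma World.closed (H : World A) (Z : Finset V) (hZ : Z.Nonempty) (hc : An A Z ⊆ Z) :
    Z = Finset.univ := by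
  by_contra hne
  obtain ⟨w, hw⟩ := H.exists_good
  obtain ⟨x, hx, h⟩ := H.ind Z hZ hne w hw.nonneg
  have h1 : A x ∩ Z = A x := Finset.inter_eq_left.mpr
    (fun y hy => hc (mem_An.mpr ⟨x, hx, hy⟩))
  have h2 : An A (A x) ∩ Z = An A (A x) := Finset.inter_eq_left.mpr
    ((An_mono (fun y hy => hc (mem_An.mpr ⟨x, hx, hy⟩))).trans hc)
  rw [h1, h2] at h
  have := hw.row_pos x
  rw [row, Re] at this
  linarith

lemma World.not_sub (H : World A) {Z : Finset V} (hZ : Z.Nonempty) (hZ' : Z ≠ Finset.univ) :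
    ¬ An A Z ⊆ Z := fun h => hZ' (H.closed Z hZ h)

lemma World.A_ne (H : World A) (x : V) : (A x).Nonempty := by
  obtain ⟨w, hw⟩ := H.exists_good
  by_contra h
  rw [Finset.not_nonempty_iff_eq_empty] at h
  have := hw.row_pos x
  rw [row, Re, h] at this
  simp at this

/-- all weights of a world are positive -/
lemma World.pos (H : World A) (hw : Good A w) (v : V) : 0 < w v := by
  rcases (hw.nonneg v).lt_or_eq with h | h
  · exact h
  exfalso
  obtain ⟨y, hy⟩ := H.A_ne v
  have hyv : y ≠ v := fun h' => H.ori.irrefl v (h' ▸ hy)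
  obtain ⟨x, hx, hle⟩ := H.ind (Finset.univ.erase v) ⟨y, Finset.mem_erase.mpr ⟨hyv, Finset.mem_univ _⟩⟩
    (fun h' => by
      have := Finset.mem_univ v; rw [← h'] at this; exact Finset.notMem_erase _ _ this) w hw.nonneg
  have hZ : ∀ S : Finset V, wt w (S ∩ Finset.univ.erase v) = wt w S := by
    intro S
    have h1 : S ∩ Finset.univ.erase v = S.erase v := by
      ext z; simp only [Finset.mem_inter, Finset.mem_erase, Finset.mem_univ, and_true]; tauto
    rw [h1]
    by_cases hv : v ∈ S
    · have := Finset.add_sum_erase S w hv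
      rw [← h] at this
      simp only [wt]; linarith
    · rw [Finset.erase_eq_of_notMem hv]
  rw [hZ] at hle
  have hsub : (A x ∩ Finset.univ.erase v) ∪ (An A (A x ∩ Finset.univ.erase v) ∩ Finset.univ.erase v)
      ⊆ Re A x := by
    apply Finset.union_subset_union Finset.inter_subset_left
    exact Finset.inter_subset_left.trans (An_mono Finset.inter_subset_left)
  have := wt_mono hw.nonneg hsub
  have h2 := hw.row_pos x
  rw [row] at h2
  linarith

lemma World.nonempty_in (H : World A) (v : V) : ∃ u, v ∈ A u := by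
  obtain ⟨y, hy⟩ := H.A_ne v
  have hyv : y ≠ v := fun h' => H.ori.irrefl v (h' ▸ hy)
  by_contra hc; push Not at hc
  have h1 : An A (Finset.univ.erase v) ⊆ Finset.univ.erase v := by
    intro z hz
    obtain ⟨u, _, hu⟩ := mem_An.mp hz
    exact Finset.mem_erase.mpr ⟨fun h => hc u (h ▸ hu), Finset.mem_univ _⟩
  have h2 := H.closed _ ⟨y, Finset.mem_erase.mpr ⟨hyv, Finset.mem_univ _⟩⟩ h1
  have := Finset.mem_univ v
  rw [← h2] at this
  exact Finset.notMem_erase _ _ this

end Crest.Agent.R057.Cg765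
namespace Crest.Agent.R057.Cg765.Good
end Crest.Agent.R057.Cg765.Good
end

-- ▼ part R057/Snc1_204
section

/-!
# R057 (S0079): the local inequality (helper204)

`Nc c S` = closed out-neighbourhood of `S` (`c x` = closed out-neighbourhood of `x`), `Ic c P` =
columnwise erosion of the cell set with rows `P b`.  `mu u v P = ∑ u b * v(P b)`.

Main result `main_ineq`: if `P ≤ P'` satisfy the two Hall conditions then
`mu(HP') - mu(HP) + mu(IP') - mu(IP) ≤ mu(P') - mu(P) + mu(HIP') - mu(HIP)`.
-/

set_option autoImplicit false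
set_option linter.unusedSectionVars false

namespace Crest.Agent.R057.Snc204

open Finset Crest.Agent.R057.Cg765

variable {V : Type} [Fintype V] [DecidableEq V]

/-- closed out-neighbourhood of a set -/
def Nc (c : V → Finset V) (S : Finset V) : Finset V := S.biUnion c

/-- erosion -/
def Ic (c : V → Finset V) (P : V → Finset V) (b : V) : Finset V :=
  univ.filter fun y => ∀ m, b ∈ c m → y ∈ P m

/-- product measure of a cell set given by its rows -/
def mu (u v : V → ℝ) (P : V → Finset V) : ℝ := ∑ b, u b * wt v (P b)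

lemma mem_Nc {c : V → Finset V} {S : Finset V} {y : V} : y ∈ Nc c S ↔ ∃ x ∈ S, y ∈ c x := by
  simp [Nc]

lemma mem_Ic {c : V → Finset V} {P : V → Finset V} {b y : V} :
    y ∈ Ic c P b ↔ ∀ m, b ∈ c m → y ∈ P m := by
  simp [Ic]

lemma Nc_mono {c : V → Finset V} {S T : Finset V} (h : S ⊆ T) : Nc c S ⊆ Nc c T :=
  Finset.biUnion_subset_biUnion_of_subset_left c h

lemma Ic_mono {c : V → Finset V} {P P' : V → Finset V} (h : ∀ b, P b ⊆ P' b) (b : V) :
    Ic c P b ⊆ Ic c P' b := by
  intro y hy
  rw [mem_Ic] at hy ⊢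
  exact fun m hm => h m (hy m hm)

/-- the two ways of computing the measure of a cell set -/
lemma mu_swap (u v : V → ℝ) (P : V → Finset V) :
    mu u v P = ∑ y, v y * wt u (univ.filter fun b => y ∈ P b) := by
  have h1 : ∀ b, u b * wt v (P b) = ∑ y, if y ∈ P b then u b * v y else 0 := by
    intro b
    rw [wt, Finset.mul_sum, ← Finset.sum_filter]
    congr 1; ext y; simp
  have h2 : ∀ y, v y * wt u (univ.filter fun b => y ∈ P b)
      = ∑ b, if y ∈ P b then u b * v y else 0 := by
    intro y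
    rw [wt, Finset.mul_sum, ← Finset.sum_filter]
    apply Finset.sum_congr rfl; intro b _; ring
  simp only [mu, h1, h2]
  rw [Finset.sum_comm]

/-- Hall condition for rows -/
def HallA (c : V → Finset V) (P P' : V → Finset V) (w v : V → ℝ) : Prop :=
  ∀ b, ∀ M ⊆ P' b \ P b, wt w M ≤ wt v (Nc c (P b ∪ M) \ Nc c (P b))

/-- Hall condition for columns -/
def HallB (c : V → Finset V) (P P' : V → Finset V) (u : V → ℝ) : Prop :=
  ∀ y, ∀ M : Finset V, (∀ b ∈ M, y ∈ P' b \ P b) →
    wt u M ≤ wt u (univ.filter fun b' => y ∈ Ic c P' b' ∧ ∃ b ∈ M, b' ∈ c b)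

section L1

variable {c : V → Finset V} {P P' : V → Finset V} {u : V → ℝ}

/-- **Lemma 1** (column form). -/
lemma lemma1 (hu : ∀ x, 0 ≤ u x) (hB : HallB c P P' u) (y' : V) :
    wt u (univ.filter fun b => y' ∈ Nc c (P' b) \ Nc c (P b))
      ≤ wt u (univ.filter fun b' => y' ∈ Nc c (Ic c P' b') \ Nc c (Ic c P b')) := by
  set M : Finset V := univ.filter fun b => y' ∈ Nc c (P' b) \ Nc c (P b) with hM
  have hMmem : ∀ b, b ∈ M ↔ (∃ y ∈ P' b, y' ∈ c y) ∧ ∀ y ∈ P b, y' ∉ c y := by
    intro b
    simp only [hM, Finset.mem_filter, Finset.mem_univ, true_and, Finset.mem_sdiff, mem_Nc]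
    push Not
    rfl
  have key : ∀ B0 : Finset V, (∀ y ∈ B0, y' ∈ c y) →
      wt u (M.filter fun b => ∃ y ∈ B0, y ∈ P' b)
        ≤ wt u (univ.filter fun b' => (∃ y ∈ B0, y ∈ Ic c P' b') ∧ ∃ b ∈ M, b' ∈ c b) := by
    intro B0
    induction B0 using Finset.induction_on with
    | empty => intro _; simp
    | insert y B0 hy ih =>
      intro hB0
      have ih' := ih (fun z hz => hB0 z (Finset.mem_insert_of_mem hz))
      have hyc : y' ∈ c y := hB0 y (Finset.mem_insert_self _ _)
      set D : Finset V := M.filter fun b => (∀ z ∈ B0, z ∉ P' b) ∧ y ∈ P' b with hD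
      have hHall := hB y D (by
        intro b hb
        rw [hD, Finset.mem_filter] at hb
        rw [Finset.mem_sdiff]
        exact ⟨hb.2.2, fun h => ((hMmem b).mp hb.1).2 y h hyc⟩)
      have e1 : (M.filter fun b => ∃ z ∈ insert y B0, z ∈ P' b)
          = (M.filter fun b => ∃ z ∈ B0, z ∈ P' b) ∪ D := by
        ext b
        simp only [hD, Finset.mem_filter, Finset.mem_union, Finset.mem_insert]
        constructor
        · rintro ⟨h1, z, hz, h2⟩
          by_cases h3 : ∃ z ∈ B0, z ∈ P' b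
          · exact Or.inl ⟨h1, h3⟩
          · push Not at h3
            rcases hz with rfl | hz
            · exact Or.inr ⟨h1, h3, h2⟩
            · exact absurd h2 (h3 z hz)
        · rintro (⟨h1, z, hz, h2⟩ | ⟨h1, _, h2⟩)
          · exact ⟨h1, z, Or.inr hz, h2⟩
          · exact ⟨h1, y, Or.inl rfl, h2⟩
      have d1 : Disjoint (M.filter fun b => ∃ z ∈ B0, z ∈ P' b) D := by
        rw [Finset.disjoint_left]
        intro b hb hb'
        simp only [hD, Finset.mem_filter] at hb hb'
        obtain ⟨_, z, hz, h2⟩ := hb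
        exact hb'.2.1 z hz h2
      set G1 : Finset V := univ.filter fun b' => (∃ z ∈ B0, z ∈ Ic c P' b') ∧ ∃ b ∈ M, b' ∈ c b
        with hG1
      set G2 : Finset V := univ.filter fun b' => y ∈ Ic c P' b' ∧ ∃ b ∈ D, b' ∈ c b with hG2
      have d2 : Disjoint G1 G2 := by
        rw [Finset.disjoint_left]
        intro b' hb hb'
        simp only [hG1, hG2, Finset.mem_filter, Finset.mem_univ, true_and] at hb hb'
        obtain ⟨⟨z, hz, h1⟩, _⟩ := hb
        obtain ⟨_, b, hbD, hbc⟩ := hb'
        rw [hD, Finset.mem_filter] at hbD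
        exact hbD.2.1 z hz (mem_Ic.mp h1 b hbc)
      have s : G1 ∪ G2 ⊆ univ.filter fun b' => (∃ z ∈ insert y B0, z ∈ Ic c P' b') ∧
          ∃ b ∈ M, b' ∈ c b := by
        intro b' hb
        rw [Finset.mem_union] at hb
        simp only [hG1, hG2, Finset.mem_filter, Finset.mem_univ, true_and,
          Finset.mem_insert] at hb ⊢
        rcases hb with ⟨⟨z, hz, h1⟩, h2⟩ | ⟨h1, b, hbD, hbc⟩
        · exact ⟨⟨z, Or.inr hz, h1⟩, h2⟩
        · rw [hD, Finset.mem_filter] at hbD
          exact ⟨⟨y, Or.inl rfl, h1⟩, b, hbD.1, hbc⟩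
      have h4 := wt_mono hu s
      rw [wt_union_disj d2] at h4
      rw [e1, wt_union_disj d1]
      linarith
  have hB' := key (univ.filter fun y => y' ∈ c y) (by intro y hy; simpa using hy)
  refine (wt_mono hu ?_).trans (hB'.trans (wt_mono hu ?_))
  · intro b hb
    rw [Finset.mem_filter]
    obtain ⟨⟨y, h1, h2⟩, _⟩ := (hMmem b).mp hb
    exact ⟨hb, y, by simpa using h2, h1⟩
  intro b' hb
  simp only [Finset.mem_filter, Finset.mem_univ, true_and, Finset.mem_sdiff, mem_Nc] at hb ⊢
  obtain ⟨⟨y, h1, h2⟩, b, hbM, hbc⟩ := hb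
  refine ⟨⟨y, h2, h1⟩, ?_⟩
  rintro ⟨z, hz, hzc⟩
  exact ((hMmem b).mp hbM).2 z (mem_Ic.mp hz b hbc) hzc

/-- **Lemma 1** (measure form). -/
lemma lemma1' (hu : ∀ x, 0 ≤ u x) (hPP : ∀ b, P b ⊆ P' b) (hB : HallB c P P' u) {v : V → ℝ}
    (hv : ∀ x, 0 ≤ v x) :
    mu u v (fun b => Nc c (P' b)) - mu u v (fun b => Nc c (P b))
      ≤ mu u v (fun b => Nc c (Ic c P' b)) - mu u v (fun b => Nc c (Ic c P b)) := by
  have gen : ∀ Q Q' : V → Finset V, (∀ b, Q b ⊆ Q' b) →
      mu u v Q' - mu u v Q = ∑ y, v y * wt u (univ.filter fun b => y ∈ Q' b \ Q b) := by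
    intro Q Q' h
    rw [mu_swap, mu_swap, ← Finset.sum_sub_distrib]
    apply Finset.sum_congr rfl
    intro y _
    rw [← mul_sub]
    congr 1
    have e : (univ.filter fun b => y ∈ Q' b \ Q b)
        = (univ.filter fun b => y ∈ Q' b) \ (univ.filter fun b => y ∈ Q b) := by
      ext b; simp
    rw [e, wt_sdiff_of_subset]
    intro b hb
    simp only [Finset.mem_filter, Finset.mem_univ, true_and] at hb ⊢
    exact h b hb
  rw [gen _ _ (fun b => Nc_mono (hPP b)), gen _ _ (fun b => Nc_mono (Ic_mono hPP b))]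
  apply Finset.sum_le_sum
  intro y _
  exact mul_le_mul_of_nonneg_left (lemma1 hu hB y) (hv y)

end L1

section L2

variable {c : V → Finset V} {P P' : V → Finset V} {w v : V → ℝ}

/-- **Lemma 3**: for a one-row extension the `I`-gain is at most the `HI`-gain. -/
lemma lemma3 (hv : ∀ x, 0 ≤ v x) (hA : HallA c P P' w v) {b0 : V} {M : Finset V}
    (hM : M ⊆ P' b0 \ P b0) (b' : V) :
    wt w (Ic c (Function.update P b0 (P b0 ∪ M)) b') - wt w (Ic c P b')
      ≤ wt v (Nc c (Ic c (Function.update P b0 (P b0 ∪ M)) b')) - wt v (Nc c (Ic c P b')) := by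
  classical
  set P1 := Function.update P b0 (P b0 ∪ M) with hP1
  have hP1b : P1 b0 = P b0 ∪ M := by simp [hP1]
  have hP1m : ∀ m, m ≠ b0 → P1 m = P m := fun m hm => by simp [hP1, hm]
  have hle : ∀ b, P b ⊆ P1 b := by
    intro b
    by_cases h : b = b0
    · subst h; rw [hP1b]; exact Finset.subset_union_left
    · rw [hP1m b h]
  by_cases hb : b' ∈ c b0
  · have hsub : Ic c P1 b' \ Ic c P b' ⊆ M := by
      intro y hy
      rw [Finset.mem_sdiff, mem_Ic, mem_Ic] at hy
      have h1 := hy.1 b0 hb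
      rw [hP1b, Finset.mem_union] at h1
      rcases h1 with h1 | h1
      · exfalso
        apply hy.2
        intro m hm
        by_cases h : m = b0
        · subst h; exact h1
        · rw [← hP1m m h]; exact hy.1 m hm
      · exact h1
    have h2 := hA b0 _ (hsub.trans hM)
    have h3 : Nc c (P b0 ∪ (Ic c P1 b' \ Ic c P b')) \ Nc c (P b0)
        ⊆ Nc c (Ic c P1 b') \ Nc c (Ic c P b') := by
      intro y hy
      simp only [Finset.mem_sdiff, mem_Nc, Finset.mem_union] at hy ⊢
      obtain ⟨⟨z, hz, hzy⟩, hn⟩ := hy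
      constructor
      · rcases hz with hz | hz
        · exact absurd ⟨z, hz, hzy⟩ hn
        · exact ⟨z, hz.1, hzy⟩
      · rintro ⟨z', hz', hz'y⟩
        exact hn ⟨z', mem_Ic.mp hz' b0 hb, hz'y⟩
    have h4 := wt_mono hv h3
    rw [wt_sdiff_of_subset (Nc_mono (Ic_mono hle b'))] at h4
    rw [wt_sdiff_of_subset (Ic_mono hle b')] at h2
    linarith
  · have : Ic c P1 b' = Ic c P b' := by
      ext y
      rw [mem_Ic, mem_Ic]
      apply forall_congr'
      intro m
      by_cases h : m = b0
      · subst h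
        constructor <;> intro _ h' <;> exact absurd h' hb
      · rw [hP1m m h]
    rw [this]; simp

/-- the change of `mu` under a one-row extension -/
lemma mu_update (u : V → ℝ) (F : Finset V → Finset V) (P : V → Finset V) (b0 : V)
    (Z : Finset V) :
    mu u v (fun b => F (Function.update P b0 Z b)) - mu u v (fun b => F (P b))
      = u b0 * (wt v (F Z) - wt v (F (P b0))) := by
  rw [mu, mu, ← Finset.sum_sub_distrib, Finset.sum_eq_single b0]
  · simp; ring
  · intro b _ hb; simp [hb]
  · intro h; exact absurd (Finset.mem_univ _) h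

end L2

/-- **Main inequality.** -/
theorem main_ineq {c : V → Finset V} {u w : V → ℝ} (hu : ∀ x, 0 ≤ u x) (hw : ∀ x, 0 < w x) :
    ∀ (k : ℕ) (P P' : V → Finset V) (v : V → ℝ), (∀ b, P b ⊆ P' b) →
      ∑ b, (P' b \ P b).card = k → (∀ x, 0 ≤ v x) → HallA c P P' w v → HallB c P P' u →
      (mu u v (fun b => Nc c (P' b)) - mu u v (fun b => Nc c (P b)))
        + (mu u w (Ic c P') - mu u w (Ic c P))
      ≤ (mu u w P' - mu u w P)
        + (mu u v (fun b => Nc c (Ic c P' b)) - mu u v (fun b => Nc c (Ic c P b))) := by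
  classical
  intro k
  induction k using Nat.strong_induction_on with
  | _ k ih =>
  intro P P' v hPP hk hv hA hB
  by_cases h0 : ∀ b, P' b \ P b = ∅
  · have : P' = P := by
      funext b
      exact Finset.Subset.antisymm (Finset.sdiff_eq_empty_iff_subset.mp (h0 b)) (hPP b)
    subst this
    simp
  · push Not at h0
    obtain ⟨b1, hb1⟩ := h0
    -- candidates
    let C : Finset (V × Finset V) := univ.filter fun p => p.2 ⊆ P' p.1 \ P p.1 ∧ p.2.Nonempty
    have hC : C.Nonempty := ⟨(b1, P' b1 \ P b1), Finset.mem_filter.mpr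
      ⟨Finset.mem_univ _, Finset.Subset.refl _, hb1⟩⟩
    let G : V × Finset V → ℝ := fun p => wt v (Nc c (P p.1 ∪ p.2) \ Nc c (P p.1))
    obtain ⟨p0, hp0, hmax⟩ := C.exists_max_image (fun p => wt w p.2 / G p) hC
    obtain ⟨b0, M⟩ := p0
    have hp0' : M ⊆ P' b0 \ P b0 ∧ M.Nonempty := by simpa [C] using hp0
    obtain ⟨hM, hMne⟩ := hp0'
    have wpos : ∀ S : Finset V, S.Nonempty → 0 < wt w S := fun S hS =>
      Finset.sum_pos (fun x _ => hw x) hS
    have hG0 : wt w M ≤ G (b0, M) := hA b0 M hM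
    have hGpos : 0 < G (b0, M) := lt_of_lt_of_le (wpos M hMne) hG0
    set t : ℝ := wt w M / G (b0, M) with ht
    have ht0 : 0 < t := div_pos (wpos M hMne) hGpos
    have ht1 : t ≤ 1 := by rw [ht, div_le_one hGpos]; exact hG0
    have htG : t * G (b0, M) = wt w M := by rw [ht]; exact div_mul_cancel₀ _ hGpos.ne'
    let v' : V → ℝ := fun x => t * v x
    have hv' : ∀ x, 0 ≤ v' x := fun x => mul_nonneg ht0.le (hv x)
    have wtv' : ∀ S, wt v' S = t * wt v S := by
      intro S; simp [wt, v', Finset.mul_sum]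
    have muv' : ∀ Q, mu u v' Q = t * mu u v Q := by
      intro Q
      simp only [mu, wtv', Finset.mul_sum]
      apply Finset.sum_congr rfl; intro b _; ring
    have hA' : HallA c P P' w v' := by
      intro b M' hM'
      rw [wtv']
      rcases M'.eq_empty_or_nonempty with h | h
      · subst h; simp
      · have h1 := hmax (b, M') (by simp [C, hM', h])
        have h2 : wt w M' ≤ G (b, M') := hA b M' hM'
        have h3 : 0 < G (b, M') := lt_of_lt_of_le (wpos M' h) h2
        have h4 : wt w M' / G (b, M') ≤ t := h1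
        rw [div_le_iff₀ h3] at h4
        exact h4
    -- the new row function
    set P1 : V → Finset V := Function.update P b0 (P b0 ∪ M) with hP1
    have hP1b : P1 b0 = P b0 ∪ M := by simp [hP1]
    have hP1m : ∀ m, m ≠ b0 → P1 m = P m := fun m hm => by simp [hP1, hm]
    have hle : ∀ b, P b ⊆ P1 b := by
      intro b
      by_cases h : b = b0
      · subst h; rw [hP1b]; exact Finset.subset_union_left
      · rw [hP1m b h]
    have hP1P' : ∀ b, P1 b ⊆ P' b := by
      intro b
      by_cases h : b = b0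
      · subst h; rw [hP1b]
        exact Finset.union_subset (hPP b) (hM.trans Finset.sdiff_subset)
      · rw [hP1m b h]; exact hPP b
    have hlt : ∑ b, (P' b \ P1 b).card < k := by
      rw [← hk]
      refine Finset.sum_lt_sum (fun b _ => Finset.card_le_card
        (Finset.sdiff_subset_sdiff (le_refl _) (hle b))) ⟨b0, Finset.mem_univ _, ?_⟩
      apply Finset.card_lt_card
      rw [Finset.ssubset_iff_of_subset (Finset.sdiff_subset_sdiff (le_refl _) (hle b0))]
      obtain ⟨y, hy⟩ := hMne
      refine ⟨y, hM hy, ?_⟩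
      rw [hP1b]; simp [hy]
    have hA1 : HallA c P1 P' w v' := by
      intro b M' hM'
      by_cases h : b = b0
      · subst h
        rw [hP1b] at hM' ⊢
        have h1 : M ∪ M' ⊆ P' b \ P b :=
          Finset.union_subset hM (hM'.trans (Finset.sdiff_subset_sdiff (le_refl _)
            Finset.subset_union_left))
        have h2 := hA' b _ h1
        have hdisj : Disjoint M M' := by
          rw [Finset.disjoint_left]
          intro y hy hy'
          have := hM' hy'
          simp [hy] at this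
        rw [wt_union_disj hdisj, ← Finset.union_assoc,
          wt_sdiff_of_subset (Nc_mono (Finset.subset_union_left.trans
            Finset.subset_union_left))] at h2
        rw [wt_sdiff_of_subset (Nc_mono Finset.subset_union_left)]
        have h3 : wt v' (Nc c (P b ∪ M)) - wt v' (Nc c (P b)) = wt w M := by
          rw [← wt_sdiff_of_subset (Nc_mono Finset.subset_union_left), wtv']
          exact htG
        linarith
      · rw [hP1m b h] at hM' ⊢
        exact hA' b M' hM'
    have hB1 : HallB c P1 P' u := by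
      intro y M' hM'
      apply hB y M'
      intro b hb
      have := hM' b hb
      rw [Finset.mem_sdiff] at this ⊢
      exact ⟨this.1, fun h => this.2 (hle b h)⟩
    have IH := ih _ hlt P1 P' v' hP1P' rfl hv' hA1 hB1
    -- Lemma 1
    have L1 := lemma1' hu hPP hB hv
    -- tight
    have e1 : mu u v' (fun b => Nc c (P1 b)) - mu u v' (fun b => Nc c (P b)) = u b0 * wt w M := by
      rw [hP1, mu_update (v := v') u (Nc c) P b0 (P b0 ∪ M)]
      congr 1
      rw [← wt_sdiff_of_subset (Nc_mono Finset.subset_union_left), wtv']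
      exact htG
    have e2 : mu u w P1 - mu u w P = u b0 * wt w M := by
      have := mu_update (v := w) u id P b0 (P b0 ∪ M)
      simp only [id] at this
      rw [hP1]
      rw [this]
      congr 1
      rw [← wt_sdiff_of_subset Finset.subset_union_left]
      congr 1
      ext y
      simp only [Finset.mem_sdiff, Finset.mem_union]
      constructor
      · rintro ⟨h1 | h1, h2⟩
        · exact absurd h1 h2
        · exact h1
      · intro h1
        exact ⟨Or.inr h1, (Finset.mem_sdiff.mp (hM h1)).2⟩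
    have e3 : mu u w (Ic c P1) - mu u w (Ic c P)
        ≤ mu u v' (fun b => Nc c (Ic c P1 b)) - mu u v' (fun b => Nc c (Ic c P b)) := by
      rw [mu, mu, mu, mu, ← Finset.sum_sub_distrib, ← Finset.sum_sub_distrib]
      apply Finset.sum_le_sum
      intro b' _
      rw [← mul_sub, ← mul_sub]
      exact mul_le_mul_of_nonneg_left (lemma3 hv' hA' hM b') (hu b')
    simp only [muv'] at IH e1 e3
    nlinarith
  
end Crest.Agent.R057.Snc204
end

-- ▼ part R057/Snc2_204

/-!
# R057 (S0079): final assembly (min-cut argument of helper280/helper427 with the local inequality)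
-/

set_option autoImplicit false
set_option linter.unusedSectionVars false

namespace Crest.Agent.R057.Snc204

open Finset Crest.Agent.R057.Cg765

variable {V : Type} [Fintype V] [DecidableEq V]

/-- closed out-neighbourhoods -/
def cl (A : V → Finset V) : V → Finset V := fun x => insert x (A x)

variable {A : V → Finset V} {w : V → ℝ}

lemma mem_cl {x y : V} : y ∈ cl A x ↔ y = x ∨ y ∈ A x := by simp [cl]

lemma self_mem_cl (x : V) : x ∈ cl A x := by simp [cl]

lemma Nc_cl (S : Finset V) : Nc (cl A) S = S ∪ An A S := by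
  ext y
  simp only [mem_Nc, mem_cl, Finset.mem_union, mem_An]
  constructor
  · rintro ⟨x, hx, rfl | hy⟩
    · exact Or.inl hx
    · exact Or.inr ⟨x, hx, hy⟩
  · rintro (h | ⟨x, hx, hy⟩)
    · exact ⟨y, h, Or.inl rfl⟩
    · exact ⟨x, hx, Or.inr hy⟩

/-- CG for closed neighbourhoods, non-strict, all sets -/
lemma cg_le (H : World A) (hw : Good A w) (Q : Finset V) :
    wt w (Nc (cl A) (Nc (cl A) Q)) - wt w (Nc (cl A) Q) ≤ wt w (Nc (cl A) Q) - wt w Q := by
  by_cases hQ : An A Q ⊆ Q
  · have h1 : Nc (cl A) Q = Q := by rw [Nc_cl]; exact Finset.union_eq_left.mpr hQ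
    rw [h1, h1]
  · have h := H.cg hw Q hQ
    have h1 := wt_union (w := w) Q (An A Q)
    have h2 := wt_union (w := w) (Q ∪ An A Q) (An A (Q ∪ An A Q))
    rw [Nc_cl (Q ∪ An A Q) |> fun h => (by rw [Nc_cl Q, h] : Nc (cl A) (Nc (cl A) Q)
      = (Q ∪ An A Q) ∪ An A (Q ∪ An A Q)), Nc_cl Q]
    linarith

/-- CG for closed neighbourhoods, strict -/
lemma cg_lt (H : World A) (hw : Good A w) (Q : Finset V) (h0 : Q.Nonempty)
    (h1 : Q ≠ Finset.univ) :
    wt w (Nc (cl A) (Nc (cl A) Q)) - wt w (Nc (cl A) Q) < wt w (Nc (cl A) Q) - wt w Q := by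
  have h := H.cg hw Q (H.not_sub h0 h1)
  have h1 := wt_union (w := w) Q (An A Q)
  have h2 := wt_union (w := w) (Q ∪ An A Q) (An A (Q ∪ An A Q))
  rw [Nc_cl (Q ∪ An A Q) |> fun h => (by rw [Nc_cl Q, h] : Nc (cl A) (Nc (cl A) Q)
      = (Q ∪ An A Q) ∪ An A (Q ∪ An A Q)), Nc_cl Q]
  linarith

/-- the feasible pairs -/
structure J0 (A : V → Finset V) (P P' : V → Finset V) : Prop where
  sub : ∀ b, P b ⊆ P' b
  low : ∀ b, cl A b ⊆ P b
  up : ∀ b y, b ∈ A y → y ∉ P' b

/-- the energy -/
def En (A : V → Finset V) (w : V → ℝ) (P P' : V → Finset V) : ℝ :=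
  (mu w w (fun b => Nc (cl A) (P b)) - mu w w P) + (mu w w P' - mu w w (Ic (cl A) P'))

lemma J0_base (hA : Ori A) : J0 A (cl A) (cl A) where
  sub := fun b => Finset.Subset.refl _
  low := fun b => Finset.Subset.refl _
  up := by
    intro b y hb hy
    rcases mem_cl.mp hy with h | h
    · subst h; exact hA.irrefl _ hb
    · exact hA y b hb h

lemma exists_minimiser (hA : Ori A) (w : V → ℝ) :
    ∃ P P', J0 A P P' ∧ ∀ Q Q', J0 A Q Q' → En A w P P' ≤ En A w Q Q' := by
  classical
  let C : Finset ((V → Finset V) × (V → Finset V)) := univ.filter fun p => J0 A p.1 p.2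
  have hC : C.Nonempty := ⟨(cl A, cl A), Finset.mem_filter.mpr ⟨Finset.mem_univ _, J0_base hA⟩⟩
  obtain ⟨p, hp, hmin⟩ := C.exists_min_image (fun p => En A w p.1 p.2) hC
  exact ⟨p.1, p.2, (Finset.mem_filter.mp hp).2, fun Q Q' h =>
    hmin (Q, Q') (Finset.mem_filter.mpr ⟨Finset.mem_univ _, h⟩)⟩

section minimiser

variable {P P' : V → Finset V}

lemma hallA_of_min (hwp : ∀ x, 0 < w x) (hJ : J0 A P P')
    (hmin : ∀ Q Q', J0 A Q Q' → En A w P P' ≤ En A w Q Q') : HallA (cl A) P P' w w := by
  intro b M hM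
  have hJ' : J0 A (Function.update P b (P b ∪ M)) P' := by
    refine ⟨?_, ?_, hJ.up⟩
    · intro x
      by_cases h : x = b
      · subst h
        simp only [Function.update_self]
        exact Finset.union_subset (hJ.sub x) (hM.trans Finset.sdiff_subset)
      · rw [Function.update_of_ne h]; exact hJ.sub x
    · intro x
      by_cases h : x = b
      · subst h
        simp only [Function.update_self]
        exact (hJ.low x).trans Finset.subset_union_left
      · rw [Function.update_of_ne h]; exact hJ.low x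
  have h1 := hmin _ _ hJ'
  unfold En at h1
  have h2 := mu_update (v := w) w (Nc (cl A)) P b (P b ∪ M)
  have h3 := mu_update (v := w) w id P b (P b ∪ M)
  simp only [id] at h3
  have e : mu w w (fun b_1 => Function.update P b (P b ∪ M) b_1)
      = mu w w (Function.update P b (P b ∪ M)) := rfl
  have e' : mu w w (fun b => P b) = mu w w P := rfl
  have h4 : 0 ≤ w b * ((wt w (Nc (cl A) (P b ∪ M)) - wt w (Nc (cl A) (P b)))
      - (wt w (P b ∪ M) - wt w (P b))) := by
    rw [mul_sub, ← h2, ← h3]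
    linarith
  have h5 := nonneg_of_mul_nonneg_right h4 (hwp b)
  rw [wt_sdiff_of_subset (Nc_mono Finset.subset_union_left)]
  have hdisj : Disjoint (P b) M := by
    rw [Finset.disjoint_left]
    intro y hy hy'
    exact (Finset.mem_sdiff.mp (hM hy')).2 hy
  rw [wt_union_disj hdisj] at h5
  linarith

lemma hallB_of_min (hwp : ∀ x, 0 < w x) (hJ : J0 A P P')
    (hmin : ∀ Q Q', J0 A Q Q' → En A w P P' ≤ En A w Q Q') : HallB (cl A) P P' w := by
  classical
  intro y M hM
  let P2 : V → Finset V := fun b => if b ∈ M then (P' b).erase y else P' b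
  have hP2 : ∀ b z, z ∈ P2 b ↔ z ∈ P' b ∧ (b ∈ M → z ≠ y) := by
    intro b z
    by_cases hb : b ∈ M
    · simp only [P2, if_pos hb, Finset.mem_erase]; tauto
    · simp only [P2, if_neg hb]; tauto
  have hJ' : J0 A P P2 := by
    refine ⟨?_, hJ.low, ?_⟩
    · intro b z hz
      rw [hP2]
      refine ⟨hJ.sub b hz, fun hb h => ?_⟩
      subst h
      exact (Finset.mem_sdiff.mp (hM b hb)).2 hz
    · intro b z hb hz
      exact hJ.up b z hb ((hP2 b z).mp hz).1
  have h1 := hmin _ _ hJ'
  unfold En at h1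
  -- compute the two differences
  have e1 : mu w w P' - mu w w P2 = w y * wt w M := by
    rw [mu_swap, mu_swap, ← Finset.sum_sub_distrib, Finset.sum_eq_single y]
    · rw [← mul_sub]; congr 1
      rw [← wt_sdiff_of_subset]
      · congr 1
        ext b
        simp only [Finset.mem_sdiff, Finset.mem_filter, Finset.mem_univ, true_and, hP2]
        constructor
        · rintro ⟨h2, h3⟩
          by_contra hb
          exact h3 ⟨h2, fun h => absurd h hb⟩
        · intro hb
          exact ⟨(Finset.mem_sdiff.mp (hM b hb)).1, fun h => h.2 hb rfl⟩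
      · intro b hb
        simp only [Finset.mem_filter, Finset.mem_univ, true_and, hP2] at hb ⊢
        exact hb.1
    · intro z _ hz
      rw [← mul_sub, mul_eq_zero]; right
      rw [sub_eq_zero]; congr 1
      ext b
      simp only [Finset.mem_filter, Finset.mem_univ, true_and, hP2]
      exact ⟨fun h => ⟨h, fun _ => hz⟩, fun h => h.1⟩
    · intro h; exact absurd (Finset.mem_univ _) h
  have hI2 : ∀ b z, z ∈ Ic (cl A) P2 b ↔ z ∈ Ic (cl A) P' b ∧ ((∃ m ∈ M, b ∈ cl A m) → z ≠ y) := by
    intro b z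
    rw [mem_Ic, mem_Ic]
    simp only [hP2]
    constructor
    · intro h
      exact ⟨fun m hm => (h m hm).1, fun ⟨m, hmM, hm⟩ => (h m hm).2 hmM⟩
    · rintro ⟨h2, h3⟩ m hm
      exact ⟨h2 m hm, fun hmM => h3 ⟨m, hmM, hm⟩⟩
  have e2 : mu w w (Ic (cl A) P') - mu w w (Ic (cl A) P2)
      = w y * wt w (univ.filter fun b' => y ∈ Ic (cl A) P' b' ∧ ∃ b ∈ M, b' ∈ cl A b) := by
    rw [mu_swap, mu_swap, ← Finset.sum_sub_distrib, Finset.sum_eq_single y]
    · rw [← mul_sub]; congr 1
      rw [← wt_sdiff_of_subset]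
      · congr 1
        ext b
        simp only [Finset.mem_sdiff, Finset.mem_filter, Finset.mem_univ, true_and, hI2]
        constructor
        · rintro ⟨h2, h3⟩
          refine ⟨h2, ?_⟩
          by_contra hb
          exact h3 ⟨h2, fun h => absurd h hb⟩
        · rintro ⟨h2, h3⟩
          exact ⟨h2, fun h => h.2 h3 rfl⟩
      · intro b hb
        simp only [Finset.mem_filter, Finset.mem_univ, true_and, hI2] at hb ⊢
        exact hb.1
    · intro z _ hz
      rw [← mul_sub, mul_eq_zero]; right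
      rw [sub_eq_zero]; congr 1
      ext b
      simp only [Finset.mem_filter, Finset.mem_univ, true_and, hI2]
      exact ⟨fun h => ⟨h, fun _ => hz⟩, fun h => h.1⟩
    · intro h; exact absurd (Finset.mem_univ _) h
  have h2 : w y * wt w M
      ≤ w y * wt w (univ.filter fun b' => y ∈ Ic (cl A) P' b' ∧ ∃ b ∈ M, b' ∈ cl A b) := by
    rw [← e1, ← e2]; linarith
  exact le_of_mul_le_mul_left h2 (hwp y)

end minimiser

/-- weight of a column complement plus the diagonal cell -/
lemma wt_col (X : V → Finset V) (y : V) (hy : y ∈ X y) :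
    wt w (univ.filter fun b => y ∉ X b ∨ b = y)
      = wt w univ - wt w (univ.filter fun b => y ∈ X b) + w y := by
  have e : (univ.filter fun b => y ∉ X b ∨ b = y)
      = (univ \ univ.filter fun b => y ∈ X b) ∪ {y} := by
    ext b
    simp only [Finset.mem_filter, Finset.mem_univ, true_and, Finset.mem_union, Finset.mem_sdiff,
      Finset.mem_singleton]
  rw [e, wt_union_disj, wt_singleton, wt_sdiff_of_subset (Finset.subset_univ _)]
  rw [Finset.disjoint_left]
  intro b hb hb'
  rw [Finset.mem_singleton] at hb'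
  subst hb'
  simp [hy] at hb

/-- **There is no minimal counterexample.** -/
theorem no_world (H : World A) : False := by
  classical
  obtain ⟨w, hw⟩ := H.exists_good
  have hwp : ∀ x, 0 < w x := H.pos hw
  have hw0 : ∀ x, 0 ≤ w x := hw.nonneg
  obtain ⟨P, P', hJ, hmin⟩ := exists_minimiser H.ori w
  have hA := hallA_of_min hwp hJ hmin
  have hB := hallB_of_min hwp hJ hmin
  have ML := main_ineq (c := cl A) hw0 hwp _ P P' w hJ.sub rfl hw0 hA hB
  -- basic facts
  have hself : ∀ b, b ∈ Ic (cl A) P b := by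
    intro b; rw [mem_Ic]; intro m hm; exact hJ.low m hm
  have hself' : ∀ b, b ∈ Ic (cl A) P' b := fun b => Ic_mono hJ.sub b (hself b)
  -- `N(I P' b)` misses the in-neighbours of `b`
  have hmiss : ∀ b y, b ∈ A y → y ∉ Nc (cl A) (Ic (cl A) P' b) := by
    intro b y hby hy
    obtain ⟨z, hz, hyz⟩ := mem_Nc.mp hy
    rw [mem_Ic] at hz
    rcases mem_cl.mp hyz with h | h
    · subst h
      exact hJ.up b y hby (hz b (self_mem_cl b))
    · exact hJ.up y z h (hz y (mem_cl.mpr (Or.inr hby)))
  set P1 : V → Finset V := fun b => Nc (cl A) (Ic (cl A) P b) with hP1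
  set HP' : V → Finset V := fun b => Nc (cl A) (P' b) with hHP'
  set P1' : V → Finset V := fun b => (Ic (cl A) HP' b).filter fun y => b ∉ A y with hP1'
  have mP1' : ∀ b y, y ∈ P1' b ↔ y ∈ Ic (cl A) HP' b ∧ b ∉ A y := by
    intro b y; simp [hP1']
  have hNI : ∀ b, Nc (cl A) (Ic (cl A) P' b) ⊆ P1' b := by
    intro b y hy
    rw [mP1']
    refine ⟨?_, fun h => hmiss b y h hy⟩
    obtain ⟨z, hz, hyz⟩ := mem_Nc.mp hy
    rw [mem_Ic] at hz ⊢
    intro m hm
    exact mem_Nc.mpr ⟨z, hz m hm, hyz⟩
  have hJ1 : J0 A P1 P1' := by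
    refine ⟨?_, ?_, ?_⟩
    · intro b
      exact (Nc_mono (Ic_mono hJ.sub b)).trans (hNI b)
    · intro b y hy
      exact mem_Nc.mpr ⟨b, hself b, hy⟩
    · intro b y hb hy
      exact ((mP1' b y).mp hy).2 hb
  have hmin1 := hmin P1 P1' hJ1
  -- rows
  have R1 : mu w w (fun b => Nc (cl A) (P1 b)) - mu w w P1 < mu w w P1 - mu w w (Ic (cl A) P) := by
    rw [mu, mu, mu, ← Finset.sum_sub_distrib, ← Finset.sum_sub_distrib]
    have := H.ne
    apply Finset.sum_lt_sum_of_nonempty Finset.univ_nonempty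
    intro b _
    rw [← mul_sub, ← mul_sub]
    apply mul_lt_mul_of_pos_left _ (hwp b)
    refine cg_lt H hw (Ic (cl A) P b) ⟨b, hself b⟩ ?_
    intro h
    obtain ⟨y, hy⟩ := H.nonempty_in b
    have h1 : y ∈ Ic (cl A) P b := by rw [h]; exact Finset.mem_univ _
    exact hJ.up b y hy (hJ.sub b (mem_Ic.mp h1 b (self_mem_cl b)))
  -- columns
  have hc1 : ∀ y, y ∈ HP' y := fun y =>
    mem_Nc.mpr ⟨y, hJ.sub y (hJ.low y (self_mem_cl y)), self_mem_cl y⟩
  have hc2 : ∀ y, y ∈ P1' y := fun y => hJ1.sub y (hJ1.low y (self_mem_cl y))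
  have hc3 : ∀ y, y ∈ Ic (cl A) P1' y := by
    intro y
    rw [mem_Ic]
    intro m hm
    exact hJ1.sub m (hJ1.low m hm)
  have C1 : ∀ y, wt w (univ.filter fun b => y ∈ P1' b) - wt w (univ.filter fun b => y ∈ Ic (cl A) P1' b)
      ≤ wt w (univ.filter fun b => y ∈ HP' b) - wt w (univ.filter fun b => y ∈ P1' b) := by
    intro y
    have h := cg_le H hw (univ.filter fun b => y ∉ HP' b ∨ b = y)
    have e1 : Nc (cl A) (univ.filter fun b => y ∉ HP' b ∨ b = y)
        = univ.filter fun b => y ∉ P1' b ∨ b = y := by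
      ext b
      simp only [mem_Nc, Finset.mem_filter, Finset.mem_univ, true_and, mP1', mem_Ic]
      constructor
      · rintro ⟨m, hm | hm, hb⟩
        · left; intro h'; exact hm (h'.1 m hb)
        · subst hm
          rcases mem_cl.mp hb with h' | h'
          · exact Or.inr h'
          · left; intro h''; exact h''.2 h'
      · rintro (h' | h')
        · by_cases h2 : ∀ m, b ∈ cl A m → y ∈ HP' m
          · have : b ∈ A y := by
              by_contra h3; exact h' ⟨h2, h3⟩
            exact ⟨y, Or.inr rfl, mem_cl.mpr (Or.inr this)⟩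
          · push Not at h2
            obtain ⟨m, hm, hmy⟩ := h2
            exact ⟨m, Or.inl hmy, hm⟩
        · exact ⟨y, Or.inr rfl, by rw [h']; exact self_mem_cl y⟩
    have e2 : Nc (cl A) (univ.filter fun b => y ∉ P1' b ∨ b = y)
        = univ.filter fun b => y ∉ Ic (cl A) P1' b ∨ b = y := by
      ext b
      simp only [mem_Nc, Finset.mem_filter, Finset.mem_univ, true_and]
      constructor
      · rintro ⟨m, hm | hm, hb⟩
        · left; intro h'; exact hm (mem_Ic.mp h' m hb)
        · subst hm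
          rcases mem_cl.mp hb with h' | h'
          · exact Or.inr h'
          · left; intro h''
            exact hJ1.up b m h' (mem_Ic.mp h'' b (self_mem_cl b))
      · rintro (h' | h')
        · rw [mem_Ic] at h'
          push Not at h'
          obtain ⟨m, hm, hmy⟩ := h'
          exact ⟨m, Or.inl hmy, hm⟩
        · exact ⟨y, Or.inr rfl, by rw [h']; exact self_mem_cl y⟩
    rw [e1, e2, wt_col _ y (hc1 y), wt_col _ y (hc2 y), wt_col _ y (hc3 y)] at h
    linarith
  have C2 : mu w w P1' - mu w w (Ic (cl A) P1') ≤ mu w w HP' - mu w w P1' := by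
    rw [mu_swap w w P1', mu_swap w w (Ic (cl A) P1'), mu_swap w w HP',
      ← Finset.sum_sub_distrib, ← Finset.sum_sub_distrib]
    apply Finset.sum_le_sum
    intro y _
    rw [← mul_sub, ← mul_sub]
    exact mul_le_mul_of_nonneg_left (C1 y) (hw0 y)
  have C3 : mu w w (fun b => Nc (cl A) (Ic (cl A) P' b)) ≤ mu w w P1' := by
    rw [mu, mu]
    apply Finset.sum_le_sum
    intro b _
    exact mul_le_mul_of_nonneg_left (wt_mono hw0 (hNI b)) (hw0 b)
  unfold En at hmin1
  linarith

/-- **Seymour's second neighbourhood conjecture.** -/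
theorem snc (V : Type*) [Fintype V] [Nonempty V] (G : Digraph V)
    (hloop : ∀ v, ¬ G.Adj v v) (hopp : ∀ u v, G.Adj u v → ¬ G.Adj v u) :
    ∃ v : V, Set.ncard {u | G.Adj v u} ≤
      Set.ncard {w | w ≠ v ∧ ¬ G.Adj v w ∧ ∃ u, G.Adj v u ∧ G.Adj u w} :=
  S0079_of (fun _ _ H => no_world H) V G hloop hopp

end Crest.Agent.R057.Snc204
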